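import Vale.Agent.Lib.P047.Main

/-!
A uniform constant factor improvement of the Nisan-Szegedy bound `M(d) ≤ d`:
a Boolean function of degree at most `d ≥ 2` has level one sum at most `(21/22) d`.
-/

open Vale.Agent.Lib.P047

/-- For every Boolean `f` on the cube with Fourier degree at most `d ≥ 2`, the sum of the level one
Fourier coefficients is at most `(21/22) d`. -/
theorem Vale.Agent.Results.P047.LevelOneSum.result {n d : ℕ} (hd : 2 ≤ d)
    (f : (Fin n → Bool) → ℝ) (hf : ∀ x, f x = 1 ∨ f x = -1)
    (hdeg : ∀ S : Finset (Fin n), d < S.card → fourierCoeff f S = 0) :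
    ∑ i, fourierCoeff f {i} ≤ (21 / 22 : ℝ) * d :=
  level_one_sum_le hd f hf hdeg
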